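import Vale.Agent.helper3.Gsh.Torus

/-!
Languages recognised by a finite group with an abelian normal subgroup whose quotient has exponent
two have generalized star height at most one.
-/

namespace Vale.Agent.helper3.Gsh

open Vale.Agent.helper5.GSH

variable {α : Type} [Fintype α] [DecidableEq α]

/-- The parity vector at the end of a word. -/
def endVec : (α → ZMod 2) → List α → (α → ZMod 2)
  | σ, [] => σ
  | σ, y :: w => endVec (flipAt σ y) w

omit [Fintype α] in
lemma endVec_apply (σ : α → ZMod 2) (w : List α) (y : α) :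
    endVec σ w y = σ y + (cnt {y} w : ZMod 2) := by
  induction w generalizing σ with
  | nil => simp [endVec, cnt]
  | cons x w ih =>
    simp only [endVec, cnt, ih, flipAt, Pi.add_apply]
    by_cases h : y = x
    · subst h
      simp only [Pi.single_eq_same, Finset.mem_singleton, if_true]
      push_cast
      ring
    · have h' : x ≠ y := fun e => h e.symm
      simp [Pi.single_eq_of_ne h, h']

omit [Fintype α] in
lemma acc_endVec [Fintype α] (σ : α → ZMod 2) : Acc (fun w : List α => endVec σ w) := by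
  have h1 : Acc (fun (w : List α) (y : α) => σ y + (cnt {y} w : ZMod 2)) :=
    Acc.pi (fun y => (Acc.const _).add (acc_cnt_zmod 2 {y}))
  convert h1 using 2 with w
  funext y
  exact endVec_apply σ w y

omit [Fintype α] in
lemma exists_ubar [Fintype α] {U : Type} [CommGroup U] (u : α → U) (hu : ∀ y, u y * u y = 1) :
    ∃ ub : (α → ZMod 2) → U, ∀ σ x, ub (flipAt σ x) = ub σ * u x := by
  classical
  refine ⟨fun σ => ∏ y, u y ^ (σ y).val, ?_⟩
  intro σ x
  have h1 : ∀ r : ZMod 2, ∀ v : U, v * v = 1 → v ^ (r + 1).val = v ^ r.val * v := by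
    intro r v hv
    fin_cases r
    · have e : ((0 : ZMod 2) + 1).val = 1 := by decide
      have e2 : (0 : ZMod 2).val = 0 := by decide
      change v ^ ((0 : ZMod 2) + 1).val = v ^ (0 : ZMod 2).val * v
      rw [e, e2, pow_zero, pow_one, one_mul]
    · have e : ((1 : ZMod 2) + 1).val = 0 := by decide
      have e2 : (1 : ZMod 2).val = 1 := by decide
      simp only [Fin.mk_one, Fin.isValue]
      change v ^ ((1 : ZMod 2) + 1).val = v ^ (1 : ZMod 2).val * v
      rw [e, e2, pow_zero, pow_one, hv]
  have h : ∀ y, u y ^ ((flipAt σ x) y).val = u y ^ (σ y).val * (if y = x then u x else 1) := by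
    intro y
    by_cases hy : y = x
    · subst hy
      simp only [flipAt, Pi.add_apply, Pi.single_eq_same, if_true]
      exact h1 _ _ (hu y)
    · simp [flipAt, Pi.single_eq_of_ne hy, hy]
  simp only [h]
  rw [Finset.prod_mul_distrib, Finset.prod_ite_eq']
  simp

variable {G : Type} [Group G]

omit [Fintype α] in
lemma exists_tau [Fintype α] (N : Subgroup G) [N.Normal] (h2 : ∀ g : G, g ^ 2 ∈ N) (g : α → G) :
    ∃ τ : (α → ZMod 2) → G, ∀ σ x, τ σ * g x * (τ (flipAt σ x))⁻¹ ∈ N := by
  have hsq : ∀ u : G ⧸ N, u * u = 1 := by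
    intro u
    obtain ⟨x, rfl⟩ := QuotientGroup.mk_surjective u
    rw [← QuotientGroup.mk_mul, ← pow_two, QuotientGroup.eq_one_iff]
    exact h2 x
  have hcomm : ∀ a b : G ⧸ N, a * b = b * a := by
    intro a b
    calc a * b = a * 1 * b := by simp
      _ = a * ((a * b) * (a * b)) * b := by rw [hsq (a * b)]
      _ = (a * a) * (b * a) * (b * b) := by simp only [mul_assoc]
      _ = b * a := by rw [hsq a, hsq b]; simp
  have hex : ∃ ub : (α → ZMod 2) → G ⧸ N, ∀ σ x, ub (flipAt σ x) = ub σ * ((g x : G) : G ⧸ N) := by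
    letI inst : CommGroup (G ⧸ N) := { (inferInstance : Group (G ⧸ N)) with mul_comm := hcomm }
    exact exists_ubar (U := G ⧸ N) (fun y => ((g y : G) : G ⧸ N)) (fun y => hsq _)
  obtain ⟨ub, hub⟩ := hex
  refine ⟨fun σ => (ub σ).out, ?_⟩
  intro σ x
  rw [← QuotientGroup.eq_one_iff, QuotientGroup.mk_mul, QuotientGroup.mk_mul, QuotientGroup.mk_inv,
    QuotientGroup.out_eq', QuotientGroup.out_eq', hub, mul_inv_cancel]

section phi

variable {A : Type}

/-- The product along a word of values depending on the parity vector and the letter. -/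
def phiProd [Monoid A] (c : (α → ZMod 2) → α → A) : (α → ZMod 2) → List α → A
  | _, [] => 1
  | σ, y :: w => c σ y * phiProd c (flipAt σ y) w

lemma phiProd_eq [CommGroup A] (c : (α → ZMod 2) → α → A) (σ : α → ZMod 2) (w : List α) :
    phiProd c σ w = ∏ p : (α → ZMod 2) × α, c p.1 p.2 ^ pcount p.1 p.2 σ w := by
  classical
  induction w generalizing σ with
  | nil => simp [phiProd, pcount]
  | cons y w ih =>
    simp only [phiProd, pcount, pow_add]
    rw [Finset.prod_mul_distrib, ih]
    congr 1
    rw [Finset.prod_eq_single (σ, y)]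
    · simp
    · rintro ⟨ρ, x⟩ _ hne
      have : ¬ (y = x ∧ σ = ρ) := by
        rintro ⟨rfl, rfl⟩
        exact hne rfl
      simp [this]
    · intro h
      exact absurd (Finset.mem_univ _) h

end phi

/-- Telescoping. -/
lemma tele (N : Subgroup G) (g : α → G) (τ : (α → ZMod 2) → G)
    (hτ : ∀ σ x, τ σ * g x * (τ (flipAt σ x))⁻¹ ∈ N) (σ : α → ZMod 2) (w : List α) :
    τ σ * wval g w =
      (phiProd (A := N) (fun σ x => ⟨τ σ * g x * (τ (flipAt σ x))⁻¹, hτ σ x⟩) σ w : N).1 *
        τ (endVec σ w) := by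
  induction w generalizing σ with
  | nil => simp [phiProd, endVec]
  | cons y w ih =>
    simp only [phiProd, endVec, wval_cons, Subgroup.coe_mul]
    rw [mul_assoc _ (phiProd _ _ _ : N).1, ← ih]
    group

/-- The main theorem in terms of accessible functions. -/
theorem acc_wval [Finite G] (N : Subgroup G) [N.Normal] (hN : ∀ a ∈ N, ∀ b ∈ N, a * b = b * a)
    (h2 : ∀ g : G, g ^ 2 ∈ N) (g : α → G) : Acc (fun w : List α => wval g w) := by
  classical
  obtain ⟨τ, hτ⟩ := exists_tau N h2 g
  letI inst : CommGroup N :=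
    { (inferInstance : Group N) with mul_comm := fun a b => Subtype.ext (hN a a.2 b b.2) }
  set e := Nat.card N with he
  haveI : NeZero e := ⟨Nat.card_pos.ne'⟩
  have h1 : Acc (fun (w : List α) (p : (α → ZMod 2) × α) =>
      (pcount p.1 p.2 (0 : α → ZMod 2) w : ZMod e)) :=
    Acc.pi (fun p => acc_pcount p.1 p.2 0 e)
  have h3 := (acc_endVec (α := α) (0 : α → ZMod 2)).pair h1
  refine Acc.factor h3 ?_
  intro w w' h
  simp only [Prod.mk.injEq] at h
  obtain ⟨h4, h5⟩ := h
  have h6 := tele N g τ hτ 0 w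
  have h7 := tele N g τ hτ 0 w'
  have h8 : phiProd (A := N) (fun σ x => ⟨τ σ * g x * (τ (flipAt σ x))⁻¹, hτ σ x⟩) 0 w =
      phiProd (A := N) (fun σ x => ⟨τ σ * g x * (τ (flipAt σ x))⁻¹, hτ σ x⟩) 0 w' := by
    rw [phiProd_eq, phiProd_eq]
    apply Finset.prod_congr rfl
    intro p _
    have h9 := congrFun h5 p
    rw [ZMod.natCast_eq_natCast_iff] at h9
    have h10 : ∀ m : N, m ^ e = 1 := fun m => pow_card_eq_one'
    rw [pow_eq_pow_mod _ (h10 _), pow_eq_pow_mod (pcount p.1 p.2 0 w') (h10 _), h9]
  apply mul_left_cancel (a := τ 0)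
  rw [h6, h7, h8, h4]

/-- A language recognised by a finite group with an abelian normal subgroup whose quotient has
exponent two has generalized star height at most one. -/
theorem gshLe_of_abelian_exp_two [Finite G] (N : Subgroup G) [N.Normal]
    (hN : ∀ a ∈ N, ∀ b ∈ N, a * b = b * a) (h2 : ∀ g : G, g ^ 2 ∈ N)
    (φ : FreeMonoid α →* G) (S : Set G) :
    GshLe 1 {w : List α | φ (FreeMonoid.ofList w) ∈ S} := by
  classical
  have h1 := acc_wval N hN h2 (fun a => φ (FreeMonoid.of a))
  have e : ∀ w : List α, φ (FreeMonoid.ofList w) = wval (fun a => φ (FreeMonoid.of a)) w := by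
    intro w
    induction w with
    | nil => simp [FreeMonoid.ofList_nil]
    | cons x w ih =>
      rw [FreeMonoid.ofList_cons, map_mul, ih, wval_cons]
  have h3 := (h1.comp (fun x => x ∈ S)) True
  convert h3 using 1
  ext w
  simp [e]

end Vale.Agent.helper3.Gsh
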