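import Vale.Agent.helper3.Gsh.Machine

/-!
The signed walk machine: a bit that is flipped by the letters of `S`, and a counter modulo `m`
that moves by the sign of the letter whenever the bit falls back to `false`.
-/

namespace Vale.Agent.helper3.Gsh

open Vale.Agent.helper5.GSH

variable {α : Type} [DecidableEq α] (S : Finset α) (sg : α → ℤ) (m : ℕ)

/-- One step of the signed machine. -/
def sStep (q : Bool × ZMod m) (x : α) : Bool × ZMod m :=
  if x ∈ S then (if q.1 then (false, q.2 + (sg x : ZMod m)) else (true, q.2)) else q

/-- The bit after reading a word. -/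
def low : Bool → List α → Bool
  | l, [] => l
  | l, x :: w => if x ∈ S then low (!l) w else low l w

/-- The displacement of the counter while reading a word. -/
def disp : Bool → List α → ℤ
  | _, [] => 0
  | l, x :: w => if x ∈ S then (if l then sg x + disp false w else disp true w) else disp l w

/-- The word `v` repeated `k` times. -/
def vpow (v : List α) : ℕ → List α
  | 0 => []
  | k + 1 => v ++ vpow v k

variable {S sg m}

lemma low_append (l : Bool) (u v : List α) : low S l (u ++ v) = low S (low S l u) v := by
  induction u generalizing l with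
  | nil => rfl
  | cons x u ih =>
    simp only [List.cons_append, low]
    split_ifs <;> apply ih

lemma disp_append (l : Bool) (u v : List α) :
    disp S sg l (u ++ v) = disp S sg l u + disp S sg (low S l u) v := by
  induction u generalizing l with
  | nil => simp [disp, low]
  | cons x u ih =>
    simp only [List.cons_append, disp, low]
    by_cases hx : x ∈ S
    · cases l
      · simp [hx, ih]
      · simp [hx, ih, add_assoc]
    · simp [hx, ih]

lemma low_flip (l : Bool) (w : List α) : low S (!l) w = !(low S l w) := by
  induction w generalizing l with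
  | nil => rfl
  | cons x w ih =>
    simp only [low]
    split_ifs
    · exact ih _
    · exact ih _

lemma run_sStep (l : Bool) (y : ZMod m) (w : List α) :
    run (sStep S sg m) (l, y) w = (low S l w, y + (disp S sg l w : ZMod m)) := by
  induction w generalizing l y with
  | nil => simp [low, disp]
  | cons x w ih =>
    simp only [run_cons, low, disp]
    by_cases hx : x ∈ S
    · cases l
      · simp [sStep, hx, ih]
      · simp [sStep, hx, ih, add_assoc]
    · simp [sStep, hx, ih]

lemma no_cross (hsg : ∀ x, sg x = 1 ∨ sg x = -1) {C : ℤ} (hC : (m : ℤ) ∣ C) (l : Bool) (Y : ℤ)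
    (W : List α) (hav : Avoids (sStep S sg m) ((false, 0) : Bool × ZMod m) (l, (Y : ZMod m)) W) :
    ¬ (Y < C ∧ C ≤ Y + disp S sg l W) ∧ ¬ (Y + disp S sg l W ≤ C ∧ C < Y) := by
  induction W generalizing l Y with
  | nil =>
    simp only [disp]
    constructor <;> omega
  | cons x W ih =>
    have hnext := hav.2
    simp only [disp]
    by_cases hx : x ∈ S
    · cases l
      · simp only [sStep, hx, if_true, Bool.false_eq_true, if_false] at hnext ⊢
        exact ih true Y hnext
      · simp only [sStep, hx, if_true] at hnext ⊢
        have e : (Y : ZMod m) + (sg x : ZMod m) = ((Y + sg x : ℤ) : ZMod m) := by push_cast; rfl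
        rw [e] at hnext
        have h1 := ih false (Y + sg x) hnext
        have hne : Y + sg x ≠ C := by
          intro h
          apply hnext.ne
          rw [h, (ZMod.intCast_zmod_eq_zero_iff_dvd C m).mpr hC]
        have h2 := hsg x
        constructor
        · rintro ⟨h3, h4⟩
          exact h1.1 ⟨by omega, by omega⟩
        · rintro ⟨h3, h4⟩
          exact h1.2 ⟨by omega, by omega⟩
    · simp only [sStep, hx, if_false] at hnext ⊢
      exact ih l Y hnext

lemma disp_zero_of_closed [NeZero m] (hsg : ∀ x, sg x = 1 ∨ sg x = -1) {l : Bool} {y : ZMod m}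
    {W : List α} (hav : Avoids (sStep S sg m) ((false, 0) : Bool × ZMod m) (l, y) W)
    (hrun : run (sStep S sg m) (l, y) W = (l, y)) : disp S sg l W = 0 := by
  have hm : 0 < m := NeZero.pos m
  obtain ⟨Y, hY, hY0, hY1⟩ : ∃ Y : ℤ, (Y : ZMod m) = y ∧ 0 ≤ Y ∧ Y < m := by
    refine ⟨(y.val : ℤ), by simp, by positivity, by exact_mod_cast ZMod.val_lt y⟩
  rw [run_sStep] at hrun
  have h1 : (disp S sg l W : ZMod m) = 0 := by
    have := congrArg Prod.snd hrun
    simpa using this
  have h2 : (m : ℤ) ∣ disp S sg l W := (ZMod.intCast_zmod_eq_zero_iff_dvd _ m).mp h1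
  subst hY
  by_contra hne
  rcases lt_or_gt_of_ne hne with hneg | hpos
  · have h3 : disp S sg l W ≤ -(m : ℤ) := by
      have h4 : (m : ℤ) ∣ - disp S sg l W := (dvd_neg).mpr h2
      have h5 := Int.le_of_dvd (by omega) h4
      omega
    by_cases hY' : 0 < Y
    · have := (no_cross hsg (C := 0) (dvd_zero _) l Y W hav).2
      exact this ⟨by omega, hY'⟩
    · have hm' : (0 : ℤ) < m := by exact_mod_cast hm
      have := (no_cross hsg (C := -(m : ℤ)) (by simp) l Y W hav).2
      exact this ⟨by omega, by omega⟩
  · have h3 : (m : ℤ) ≤ disp S sg l W := Int.le_of_dvd hpos h2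
    have := (no_cross hsg (C := (m : ℤ)) (dvd_refl _) l Y W hav).1
    exact this ⟨hY1, by omega⟩

lemma avoids_prefix {δ : Bool × ZMod m → α → Bool × ZMod m} {b q : Bool × ZMod m} {u v : List α}
    (h : Avoids δ b q (u ++ v)) : Avoids δ b q u := by
  induction u generalizing q with
  | nil => exact h.ne
  | cons x u ih => exact ⟨h.1, ih h.2⟩

lemma iterate_run {Q : Type} (δ' : Q → α → Q) (v : List α) (k : ℕ) (q : Q) :
    (fun s => run δ' s v)^[k] q = run δ' q (vpow v k) := by
  induction k generalizing q with
  | zero => rfl
  | succ k ih =>
    rw [Function.iterate_succ_apply, ih]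
    simp only [vpow]
    rw [run_append]

lemma disp_vpow_of_fixed {l : Bool} {v : List α} (hl : low S l v = l) (k : ℕ) :
    disp S sg l (vpow v k) = k * disp S sg l v := by
  induction k with
  | zero => simp [vpow, disp]
  | succ k ih =>
    simp only [vpow]
    rw [disp_append, hl, ih]
    push_cast
    ring

lemma low_vpow_of_flip {l : Bool} {v : List α} (hl : low S l v = !l) (j : ℕ) :
    low S l (vpow v (2 * j)) = l ∧ low S l (vpow v (2 * j + 1)) = !l := by
  have h2 : low S (!l) v = l := by rw [low_flip, hl]; simp
  induction j with
  | zero => exact ⟨rfl, by simpa [vpow, low_append] using hl⟩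
  | succ j ih =>
    have e1 : vpow v (2 * (j + 1)) = v ++ (v ++ vpow v (2 * j)) := by
      rw [show 2 * (j + 1) = 2 * j + 1 + 1 by ring]
      rfl
    have e2 : vpow v (2 * (j + 1) + 1) = v ++ (v ++ vpow v (2 * j + 1)) := by
      rw [show 2 * (j + 1) + 1 = 2 * j + 1 + 1 + 1 by ring]
      rfl
    rw [e1, e2, low_append, low_append, low_append, low_append, hl, h2]
    exact ih

lemma disp_vpow_of_flip {l : Bool} {v : List α} (hl : low S l v = !l) (j : ℕ) :
    disp S sg l (vpow v (2 * j)) = j * (disp S sg l v + disp S sg (!l) v) := by
  have h2 : low S (!l) v = l := by rw [low_flip, hl]; simp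
  induction j with
  | zero => simp [vpow, disp]
  | succ j ih =>
    have e1 : vpow v (2 * (j + 1)) = v ++ (v ++ vpow v (2 * j)) := by
      rw [show 2 * (j + 1) = 2 * j + 1 + 1 by ring]
      rfl
    rw [e1, disp_append, disp_append, hl, h2, ih]
    push_cast
    ring

lemma disp_sum_odd (hsg : ∀ x, sg x = 1 ∨ sg x = -1) (w : List α) :
    Odd (disp S sg false w + disp S sg true w) ↔ low S false w = true := by
  induction w with
  | nil => simp [disp, low]
  | cons x w ih =>
    simp only [disp, low]
    by_cases hx : x ∈ S
    · simp only [hx, if_true, Bool.false_eq_true, if_false, Bool.not_false]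
      have h1 : low S true w = !(low S false w) := by
        have := low_flip (S := S) false w
        simpa using this
      have h2 : Odd (sg x) := by
        rcases hsg x with h | h <;> rw [h] <;> decide
      rw [h1]
      have e : disp S sg true w + (sg x + disp S sg false w) =
          sg x + (disp S sg false w + disp S sg true w) := by ring
      rw [e, Int.odd_add]
      simp only [h2, true_iff]
      rw [← Int.not_odd_iff_even, ih]
      cases low S false w <;> simp
    · simp only [hx, if_false]
      exact ih

/-- The signed machine is valid. -/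
theorem sStep_valid [NeZero m] (hsg : ∀ x, sg x = 1 ∨ sg x = -1) :
    Valid (sStep S sg m) ((false, 0) : Bool × ZMod m) := by
  intro v q k hk h
  by_cases hq : q = (false, 0)
  · rw [hq]
    exact run_dead_base v
  rw [iterate_run] at h
  obtain ⟨hav, hrun⟩ := (path_iff hq hq _).mpr h
  obtain ⟨l, y⟩ := q
  have hD := disp_zero_of_closed hsg hav hrun
  obtain ⟨k', rfl⟩ : ∃ k', k = k' + 1 := ⟨k - 1, by omega⟩
  have hav1 : Avoids (sStep S sg m) ((false, 0) : Bool × ZMod m) (l, y) v := by
    simp only [vpow] at hav
    exact avoids_prefix hav
  have hne := avoids_run_ne hav1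
  rw [(path_iff hq hne v).mp ⟨hav1, rfl⟩, run_sStep]
  by_cases hl : low S l v = l
  · rw [disp_vpow_of_fixed hl] at hD
    have hd0 : disp S sg l v = 0 := by
      have : ((k' + 1 : ℕ) : ℤ) ≠ 0 := by positivity
      exact (mul_eq_zero.mp hD).resolve_left this
    simp [hl, hd0]
  · exfalso
    have hl' : low S l v = !l := by
      cases l <;> cases h' : low S _ v <;> simp_all
    have hlow := congrArg Prod.fst hrun
    rw [run_sStep] at hlow
    simp only at hlow
    rcases Nat.even_or_odd' (k' + 1) with ⟨j, hj | hj⟩
    · rw [hj, disp_vpow_of_flip hl'] at hD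
      have hj0 : (j : ℤ) ≠ 0 := by
        have : j ≠ 0 := by omega
        exact_mod_cast this
      have h0 := (mul_eq_zero.mp hD).resolve_left hj0
      have hodd : Odd (disp S sg false v + disp S sg true v) := by
        rw [disp_sum_odd hsg]
        cases l
        · simpa using hl'
        · have := low_flip (S := S) true v
          simp only [Bool.not_true] at this
          rw [this, hl']
          rfl
      cases l
      · simp only [Bool.not_false] at h0
        rw [h0] at hodd
        exact absurd hodd (by decide)
      · simp only [Bool.not_true] at h0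
        rw [add_comm, h0] at hodd
        exact absurd hodd (by decide)
    · rw [hj] at hlow
      rw [(low_vpow_of_flip hl' j).2] at hlow
      cases l <;> simp at hlow

/-- The number of times the letter `x` is read while the bit is `true`, the bit being flipped by
the letters of `S`. -/
def ocnt (S : Finset α) (x : α) : Bool → List α → ℕ
  | _, [] => 0
  | l, y :: w => (if y = x ∧ l = true then 1 else 0) + ocnt S x (if y ∈ S then !l else l) w

lemma disp_sub_eq {x : α} (hx : x ∈ S) (l : Bool) (w : List α) :
    disp S (fun _ => 1) l w - disp S (fun y => if y = x then -1 else 1) l w =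
      2 * (ocnt S x l w : ℤ) := by
  induction w generalizing l with
  | nil => simp [disp, ocnt]
  | cons y w ih =>
    simp only [disp, ocnt]
    by_cases hy : y ∈ S
    · cases l
      · simp only [hy, if_true, Bool.false_eq_true, if_false, and_false, Bool.not_false]
        simpa using ih true
      · have := ih false
        by_cases hyx : y = x
        · subst hyx
          simp only [hy, if_true, and_self, Bool.not_true, Nat.cast_add, Nat.cast_one]
          linarith
        · simp only [hy, if_true, hyx, if_false, and_true, Bool.not_true, Nat.cast_add,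
            Nat.cast_zero]
          linarith
    · have hyx : y ≠ x := fun h => hy (h ▸ hx)
      simp only [hy, if_false, hyx, false_and, Nat.cast_add, Nat.cast_zero, zero_add]
      exact ih l

lemma ocnt_eq_hitCount {x : α} (hx : x ∉ S) (q : ℕ) (w : List α) :
    ocnt S x (decide (2 ∣ q)) w = hitCount 2 S {x} q w := by
  induction w generalizing q with
  | nil => rfl
  | cons y w ih =>
    simp only [ocnt, hitCount, Finset.mem_singleton, decide_eq_true_eq]
    by_cases hy : y ∈ S
    · have e : (!decide (2 ∣ q)) = decide (2 ∣ q + 1) := by
        by_cases h : 2 ∣ q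
        · have : ¬ 2 ∣ q + 1 := by omega
          simp [h, this]
        · have : 2 ∣ q + 1 := by omega
          simp [h, this]
      simp only [hy, if_true]
      rw [e, ih]
    · simp only [hy, if_false, add_zero]
      rw [ih]

lemma natCast_two_mul_cancel {n a b : ℕ} [NeZero n]
    (h : ((2 * a : ℕ) : ZMod (2 * n)) = ((2 * b : ℕ) : ZMod (2 * n))) : (a : ZMod n) = (b : ZMod n) := by
  rw [ZMod.natCast_eq_natCast_iff] at h ⊢
  exact Nat.ModEq.mul_left_cancel' (by norm_num) h

/-- The counts `ocnt` modulo `n` are accessible. -/
theorem acc_ocnt [Fintype α] (S : Finset α) (x : α) (l : Bool) (n : ℕ) [NeZero n] :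
    Acc (fun w : List α => (ocnt S x l w : ZMod n)) := by
  by_cases hx : x ∈ S
  · haveI : NeZero (2 * n) := ⟨by have := NeZero.ne n; omega⟩
    have h1 := (acc_run_of_valid (α := α) (sStep_valid (S := S) (sg := fun _ => 1) (m := 2 * n)
      (fun _ => Or.inl rfl)) (l, 0)).comp Prod.snd
    have h2 := (acc_run_of_valid (α := α) (sStep_valid (S := S)
      (sg := fun y => if y = x then -1 else 1) (m := 2 * n)
      (fun y => by by_cases h : y = x <;> simp [h])) (l, 0)).comp Prod.snd
    have h3 := h1.sub h2
    refine Acc.factor h3 ?_
    intro w w' h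
    simp only [run_sStep, zero_add] at h
    apply natCast_two_mul_cancel
    have key : ∀ u : List α, ((2 * ocnt S x l u : ℕ) : ZMod (2 * n)) =
        (disp S (fun _ => 1) l u : ZMod (2 * n)) -
          (disp S (fun y => if y = x then -1 else 1) l u : ZMod (2 * n)) := by
      intro u
      have := disp_sub_eq hx l u
      rw [← Int.cast_sub, this]
      push_cast
      rfl
    rw [key, key, h]
  · have hSA : Disjoint S {x} := by simpa using hx
    cases l
    · have h1 := acc_hitCount_zmod (α := α) n 2 (by norm_num) hSA 1
      convert h1 using 2 with w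
      have := ocnt_eq_hitCount hx 1 w
      simp only [show ¬ (2 ∣ 1) by norm_num, decide_false] at this
      rw [this]
    · have h1 := acc_hitCount_zmod (α := α) n 2 (by norm_num) hSA 0
      convert h1 using 2 with w
      have := ocnt_eq_hitCount hx 0 w
      simp only [dvd_zero, decide_true] at this
      rw [this]

end Vale.Agent.helper3.Gsh
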