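import Vale.Agent.helper3.Gsh.Signed

/-!
The number of positions where a given letter is read after a prefix of a given parity vector is
accessible modulo every integer.
-/

namespace Vale.Agent.helper3.Gsh

open Vale.Agent.helper5.GSH

variable {α : Type} [DecidableEq α]

/-- The signed sum of the positions of `x`; the sign changes at the letters of `S`. -/
def sgnSum (S : Finset α) (x : α) : ℤ → List α → ℤ
  | _, [] => 0
  | e, y :: w => (if y = x then e else 0) + sgnSum S x (if y ∈ S then -e else e) w

lemma sgnSum_mul (S : Finset α) (x : α) (c e : ℤ) (w : List α) :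
    sgnSum S x (c * e) w = c * sgnSum S x e w := by
  induction w generalizing e with
  | nil => simp [sgnSum]
  | cons y w ih =>
    simp only [sgnSum]
    by_cases hy : y ∈ S
    · have e1 : -(c * e) = c * (-e) := by ring
      simp only [hy, if_true, e1, ih]
      by_cases h : y = x <;> simp [h] <;> ring
    · simp only [hy, if_false, ih]
      by_cases h : y = x <;> simp [h] <;> ring

lemma sgnSum_eq (S : Finset α) (x : α) (l : Bool) (w : List α) :
    sgnSum S x (if l then -1 else 1) w = (ocnt S x (!l) w : ℤ) - ocnt S x l w := by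
  induction w generalizing l with
  | nil => simp [sgnSum, ocnt]
  | cons y w ih =>
    simp only [sgnSum, ocnt]
    by_cases hy : y ∈ S
    · have h1 := ih (!l)
      simp only [Bool.not_not] at h1
      have e1 : (-(if l = true then (-1 : ℤ) else 1)) = if (!l) = true then -1 else 1 := by
        cases l <;> simp
      simp only [hy, if_true, e1, h1]
      by_cases h : y = x
      · cases l <;> simp [h] <;> ring
      · cases l <;> simp [h]
    · simp only [hy, if_false, ih]
      by_cases h : y = x
      · cases l <;> simp [h] <;> ring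
      · cases l <;> simp [h]

/-- Flip one coordinate of a parity vector. -/
def flipAt (σ : α → ZMod 2) (y : α) : α → ZMod 2 := σ + Pi.single y 1

variable [Fintype α]

/-- The number of positions of the letter `x` read when the parity vector, started at `σ`, is
equal to `ρ`. -/
def pcount (ρ : α → ZMod 2) (x : α) : (α → ZMod 2) → List α → ℕ
  | _, [] => 0
  | σ, y :: w => (if y = x ∧ σ = ρ then 1 else 0) + pcount ρ x (flipAt σ y) w

/-- The sign of an element of `ZMod 2`. -/
def sz (r : ZMod 2) : ℤ := if r = 0 then 1 else -1

lemma sz_add_one (r : ZMod 2) : sz (r + 1) = - sz r := by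
  revert r
  decide

lemma one_add_sz (r s : ZMod 2) : 1 + sz (r + s) = if r = s then 2 else 0 := by
  revert r s
  decide

/-- The sign of a subset of coordinates. -/
def subSign (ρ σ : α → ZMod 2) (T : Finset α) : ℤ := ∏ z ∈ T, sz (σ z + ρ z)

lemma sum_subSign (ρ σ : α → ZMod 2) :
    ∑ T ∈ (Finset.univ : Finset α).powerset, subSign ρ σ T =
      if σ = ρ then 2 ^ Fintype.card α else 0 := by
  classical
  unfold subSign
  rw [← Finset.prod_one_add]
  simp only [one_add_sz]
  rw [Finset.prod_ite_zero]
  simp only [Finset.mem_univ, forall_true_left, Finset.prod_const, Finset.card_univ]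
  by_cases h : σ = ρ
  · simp [h]
  · have h' : ¬ ∀ i, σ i = ρ i := fun hh => h (funext hh)
    simp [h, h']

lemma subSign_flip (ρ σ : α → ZMod 2) (y : α) (T : Finset α) :
    subSign ρ (flipAt σ y) T = subSign ρ σ T * (if y ∈ T then -1 else 1) := by
  classical
  unfold subSign
  have h1 : ∀ z ∈ T, sz ((flipAt σ y) z + ρ z) = sz (σ z + ρ z) * (if z = y then -1 else 1) := by
    intro z _
    by_cases h : z = y
    · subst h
      have e : flipAt σ z z + ρ z = (σ z + ρ z) + 1 := by
        simp only [flipAt, Pi.add_apply, Pi.single_eq_same]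
        ring
      rw [e, sz_add_one]
      simp
    · have e : flipAt σ y z + ρ z = σ z + ρ z := by
        simp [flipAt, Pi.single_eq_of_ne h]
      rw [e]
      simp [h]
  rw [Finset.prod_congr rfl h1, Finset.prod_mul_distrib]
  congr 1
  rw [Finset.prod_ite_eq']
  
lemma key_identity (ρ : α → ZMod 2) (x : α) (σ : α → ZMod 2) (w : List α) :
    ∑ T ∈ (Finset.univ : Finset α).powerset, subSign ρ σ T * sgnSum T x 1 w =
      2 ^ Fintype.card α * (pcount ρ x σ w : ℤ) := by
  classical
  induction w generalizing σ with
  | nil => simp [sgnSum, pcount]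
  | cons y w ih =>
    have h1 : ∀ T ∈ (Finset.univ : Finset α).powerset, subSign ρ σ T * sgnSum T x 1 (y :: w) =
        (if y = x then 1 else 0) * subSign ρ σ T + subSign ρ (flipAt σ y) T * sgnSum T x 1 w := by
      intro T _
      simp only [sgnSum]
      rw [subSign_flip]
      by_cases hT : y ∈ T
      · have e := sgnSum_mul T x (-1) 1 w
        simp only [mul_one] at e
        simp only [hT, if_true, e]
        ring
      · simp only [hT, if_false]
        ring
    rw [Finset.sum_congr rfl h1, Finset.sum_add_distrib, ← Finset.mul_sum, sum_subSign, ih]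
    simp only [pcount]
    by_cases hy : y = x
    · by_cases hs : σ = ρ
      · simp [hy, hs]
        ring
      · simp [hy, hs]
    · simp [hy]

lemma natCast_pow_mul_cancel {a n u v : ℕ} [NeZero n]
    (h : ((2 ^ a * u : ℕ) : ZMod (2 ^ a * n)) = ((2 ^ a * v : ℕ) : ZMod (2 ^ a * n))) :
    (u : ZMod n) = (v : ZMod n) := by
  rw [ZMod.natCast_eq_natCast_iff] at h ⊢
  exact Nat.ModEq.mul_left_cancel' (by positivity) h

/-- The counts at a parity vector are accessible modulo every integer. -/
theorem acc_pcount (ρ : α → ZMod 2) (x : α) (σ : α → ZMod 2) (e : ℕ) [NeZero e] :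
    Acc (fun w : List α => (pcount ρ x σ w : ZMod e)) := by
  classical
  set a := Fintype.card α with ha
  haveI : NeZero (2 ^ a * e) := ⟨by have := NeZero.ne e; positivity⟩
  have h1 : ∀ T : Finset α, Acc (fun w : List α => ((sgnSum T x 1 w : ℤ) : ZMod (2 ^ a * e))) := by
    intro T
    have h2 := acc_ocnt T x true (2 ^ a * e)
    have h3 := acc_ocnt T x false (2 ^ a * e)
    have h4 := h2.sub h3
    convert h4 using 2 with w
    have := sgnSum_eq T x false w
    simp only [Bool.false_eq_true, if_false, Bool.not_false] at this
    rw [this]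
    push_cast
    rfl
  have h5 := Acc.finset_sum (Finset.univ : Finset α).powerset
    (f := fun T (w : List α) => ((subSign ρ σ T : ℤ) : ZMod (2 ^ a * e)) *
      ((sgnSum T x 1 w : ℤ) : ZMod (2 ^ a * e)))
    (fun T _ => (Acc.const _).mul (h1 T))
  refine Acc.factor h5 ?_
  intro w w' h
  apply natCast_pow_mul_cancel (a := a)
  have key : ∀ u : List α, ((2 ^ a * pcount ρ x σ u : ℕ) : ZMod (2 ^ a * e)) =
      ∑ T ∈ (Finset.univ : Finset α).powerset, ((subSign ρ σ T : ℤ) : ZMod (2 ^ a * e)) *
        ((sgnSum T x 1 u : ℤ) : ZMod (2 ^ a * e)) := by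
    intro u
    have := key_identity ρ x σ u
    have h6 := congrArg (fun z : ℤ => (z : ZMod (2 ^ a * e))) this
    simp only [Int.cast_sum, Int.cast_mul] at h6
    rw [h6]
    push_cast
    rfl
  rw [key, key]
  exact h

end Vale.Agent.helper3.Gsh
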